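import Vale.Agent.Lib.P282.Main

/-!
P282: the ODP volume gap inequality for Gorenstein klt germs of small embedding codimension.
-/

set_option autoImplicit false

open scoped ENNReal

namespace Vale.Agent.Results.P282.GorensteinLowCodim

open Vale.Agent.P282

/-- Let `(Spec A, x)` be a Gorenstein klt germ of dimension `n ≥ 2` and embedding dimension `n + c`,
`c ≥ 1` (so `x` is singular). Then its normalized volume is at most
`(1 + binom (c + s - 1) c) (n - s) ^ n` for some `1 ≤ s < n`, with `s ≥ 2` if `c ≥ 2`. In particular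
it is at most `2 (n - 1) ^ n`, and smaller if `c ≥ 2`, in the listed range of `(n, c)`; this range
contains all `n` if `c ≤ 3`. -/
theorem result (n c : ℕ) (hn : 2 ≤ n) (hc1 : 1 ≤ c) (A L : Type) [CommRing A] [Algebra ℂ A]
    [Field L] [Algebra ℂ L] [Algebra A L] [IsScalarTower ℂ A L] (x : Ideal A)
    (ω : RationalForm n L) (hG : IsGorensteinKltGerm n A x ω)
    (hcot : Module.finrank ℂ x.Cotangent = n + c) :
    (∃ s : ℕ, 1 ≤ s ∧ s < n ∧ (2 ≤ c → 2 ≤ s) ∧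
      normalizedVolume n x ω ≤ (((1 + (c + s - 1).choose c) * (n - s) ^ n : ℕ) : ℝ≥0∞)) ∧
    ((c ≤ 3 ∨ (n ≤ 16 ∧ c ≤ 4) ∨ (n ≤ 7 ∧ c ≤ 5) ∨ (n ≤ 5 ∧ c ≤ 6) ∨ (n = 4 ∧ c ≤ 8)) →
      normalizedVolume n x ω ≤ ENNReal.ofReal (2 * ((n : ℝ) - 1) ^ n) ∧
      (2 ≤ c → normalizedVolume n x ω < ENNReal.ofReal (2 * ((n : ℝ) - 1) ^ n))) :=
  ⟨exists_bound hn x ω hG hc1 hcot, main_bound hn x ω hG hc1 hcot⟩

end Vale.Agent.Results.P282.GorensteinLowCodim
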