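import Vale.Agent.Lib.P282V.Bridge

/-!
P282: the ODP volume gap conjecture (inequality, and equality only for hypersurface points) for
Gorenstein klt points of embedding codimension at most three in every dimension, and for a larger
range of embedding codimensions in low dimensions.
-/

set_option autoImplicit false

open scoped ENNReal

namespace Vale.Agent.Results.P282.OdpGapLowCodim

open Vale.Agent.P282V

/-- Let `X = Spec A` be a normal Cohen–Macaulay complex affine variety of dimension `n ≥ 2`, `x` a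
closed point at which `K_X` is Cartier (generated by the rational form `ω`) and `X` is klt, and let
`e` be the embedding dimension of `x`; assume `x` singular, `n < e`.

* If `e ≤ n + 3`, or `n ≤ 16` and `e ≤ n + 4`, or `n ≤ 7` and `e ≤ n + 5`, or `n ≤ 5` and
  `e ≤ n + 6`, or `n = 4` and `e ≤ 12`, then the normalized volume of `x` is at most
  `2 (n - 1) ^ n`, the one of the ordinary double point, and equality forces `x` to be a
  hypersurface singularity, `e = n + 1`.
* For all `e` the normalized volume is at most `(1 + binom (e - n + s - 1) (e - n)) (n - s) ^ n` for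
  some `1 ≤ s < n`, and `s ≥ 2` if `x` is not a hypersurface singularity. -/
theorem result (n : ℕ) (hn : 2 ≤ n) (A L : Type) [CommRing A] [Algebra ℂ A] [Field L] [Algebra ℂ L]
    [Algebra A L] [IsScalarTower ℂ A L] (x : Ideal A) (ω : RationalForm n L)
    (hX : IsGorensteinKltPoint n A x ω) (e : ℕ) (he : Module.finrank ℂ x.Cotangent = e)
    (hsing : n < e) :
    ((e ≤ n + 3 ∨ (n ≤ 16 ∧ e ≤ n + 4) ∨ (n ≤ 7 ∧ e ≤ n + 5) ∨ (n ≤ 5 ∧ e ≤ n + 6) ∨
        (n = 4 ∧ e ≤ 12)) →
      normalizedVolume n x ω ≤ ENNReal.ofReal (2 * ((n : ℝ) - 1) ^ n) ∧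
      (normalizedVolume n x ω = ENNReal.ofReal (2 * ((n : ℝ) - 1) ^ n) → e = n + 1)) ∧
    ∃ s : ℕ, 1 ≤ s ∧ s < n ∧ (e ≠ n + 1 → 2 ≤ s) ∧
      normalizedVolume n x ω ≤
        (((1 + (e - n + s - 1).choose (e - n)) * (n - s) ^ n : ℕ) : ℝ≥0∞) := by
  obtain ⟨c, hc⟩ : ∃ c, e = n + c := ⟨e - n, by omega⟩
  have hc1 : 1 ≤ c := by omega
  have hcot : Module.finrank ℂ x.Cotangent = n + c := by rw [he, hc]
  have hG := hX.old
  have hle := normalizedVolume_le x ω
  constructor
  · intro hr
    have h := _root_.Vale.Agent.P282.main_bound hn x _ hG hc1 hcot (by omega)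
    refine ⟨hle.trans h.1, fun heq => ?_⟩
    by_contra hne
    have h2 := lt_of_le_of_lt hle (h.2 (by omega))
    exact absurd heq h2.ne
  · obtain ⟨s, h1, h2, h3, h4⟩ := _root_.Vale.Agent.P282.exists_bound hn x _ hG hc1 hcot
    refine ⟨s, h1, h2, fun hne => h3 (by omega), hle.trans ?_⟩
    have h5 : e - n = c := by omega
    rw [h5]
    exact h4

end Vale.Agent.Results.P282.OdpGapLowCodim
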